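import Vale.Agent.Lib.P183.CertsA
import Vale.Agent.Lib.P183.CertsB
import Vale.Agent.Lib.P183.CertsC
import Vale.Agent.Lib.P183.CertsD
import Vale.Agent.Lib.P183.CertsE
import Vale.Agent.Lib.P183.Final

/-!
All lattices with at most seven elements are representable.
-/
namespace Vale.Agent.Lib.P183

theorem goodC {c : Cert} {n mask : Nat} (h : c.chkAll = true) (hn : c.n = n) (hm : c.ord = mask) :
    Good n mask := by
  subst hn hm
  exact good_of_cert h

theorem good_cons {n m : Nat} {l : List Nat} (h1 : Good n m) (h2 : ∀ x ∈ l, Good n x) :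
    ∀ x ∈ m :: l, Good n x := by
  intro x hx
  rcases List.mem_cons.1 hx with h | h
  · rw [h]; exact h1
  · exact h2 x h

theorem good_nil {n : Nat} : ∀ x ∈ ([] : List Nat), Good n x := by
  intro x hx
  cases hx

/-- the numbering of `L7` -/
def e7f : L7 → Fin 7
  | L7.bot => 0
  | L7.x => 1
  | L7.p => 2
  | L7.q => 3
  | L7.r => 4
  | L7.s => 5
  | L7.top => 6

/-- the inverse numbering of `L7` -/
def e7g : Fin 7 → L7 :=
  ![L7.bot, L7.x, L7.p, L7.q, L7.r, L7.s, L7.top]

/-- the numbering of `L7` as a bijection -/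
def e7 : L7 ≃ Fin 7 where
  toFun := e7f
  invFun := e7g
  left_inv := by decide
  right_inv := by decide

theorem e7_ord : ∀ a b : L7, a ≤ b ↔ ordM 7 284795239735679 (e7 a) (e7 b) = true := by decide

theorem good_L7 : Good 7 284795239735679 := by
  intro L _ e he
  refine Representable.of_iso (M := L7) ⟨e.trans e7.symm, ?_⟩ representable_L7
  intro x y
  have h1 : (e.trans e7.symm) x = e7.symm (e x) := rfl
  have h2 : (e.trans e7.symm) y = e7.symm (e y) := rfl
  rw [h1, h2, he x y, e7_ord]
  simp

/-- the orders with 1 elements -/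
def masks1 : List Nat := [1]

open NTree in
/-- the table for 1 elements -/
noncomputable def tbl1 : NTree := l 0

theorem tbl1_ok : chkTbl 1 tbl1 masks1 = true := by decide +kernel

theorem masks1_good : ∀ x ∈ masks1, Good 1 x :=
  (good_cons (goodC c1_0_ok rfl rfl)
    good_nil)

/-- the orders with 2 elements -/
def masks2 : List Nat := [11]

open NTree in
/-- the table for 2 elements -/
noncomputable def tbl2 : NTree := l 4096

theorem tbl2_ok : chkTbl 2 tbl2 masks2 = true := by decide +kernel

theorem masks2_good : ∀ x ∈ masks2, Good 2 x :=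
  (good_cons (goodC c2_0_ok rfl rfl)
    good_nil)

/-- the orders with 3 elements -/
def masks3 : List Nat := [311]

open NTree in
/-- the table for 3 elements -/
noncomputable def tbl3 : NTree := l 69632

theorem tbl3_ok : chkTbl 3 tbl3 masks3 = true := by decide +kernel

theorem masks3_good : ∀ x ∈ masks3, Good 3 x :=
  (good_cons (goodC c3_0_ok rfl rfl)
    good_nil)

/-- the orders with 4 elements -/
def masks4 : List Nat := [36015, 36079]

open NTree in
/-- the table for 4 elements -/
noncomputable def tbl4 : NTree := n (l 856064) (l 856068)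

theorem tbl4_ok : chkTbl 4 tbl4 masks4 = true := by decide +kernel

theorem masks4_good : ∀ x ∈ masks4, Good 4 x :=
  (good_cons (goodC c4_0_ok rfl rfl)
    (good_cons (goodC c4_1_ok rfl rfl)
    good_nil))

/-- the orders with 5 elements -/
def masks5 : List Nat := [17584735, 17592927, 17593183, 17585119, 17593311]

open NTree in
/-- the table for 5 elements -/
noncomputable def tbl5 : NTree := n (n (n (l 9244672) (l 9244676)) (n (l 9216004) (l 9244680))) (n (n (l 8757252) (l 837)) (n (l 9244684) (l 9244688)))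

theorem tbl5_ok : chkTbl 5 tbl5 masks5 = true := by decide +kernel

theorem masks5_good : ∀ x ∈ masks5, Good 5 x :=
  (good_cons (goodC c5_0_ok rfl rfl)
    (good_cons (goodC c5_1_ok rfl rfl)
    (good_cons (goodC c5_2_ok rfl rfl)
    (good_cons (goodC c5_3_ok rfl rfl)
    (good_cons (goodC c5_4_ok rfl rfl)
    good_nil)))))

/-- the orders with 6 elements -/
def masks6 : List Nat := [35175680191, 35179874495, 35179940031, 35175778495, 35179972799, 35179941055, 35175713983, 35175779519, 35179973823, 35179974335, 35175681983, 35179876287, 35179941823, 35175780287, 35179974591]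

open NTree in
/-- the table for 6 elements -/
noncomputable def tbl6 : NTree := n (n (n (n (n (n (l 93130752) (l 93130756)) (n (l 92901380) (l 93130760))) (n (n (l 92844036) (l 93102088)) (n (l 92643336) (l 93130772)))) (n (n (n (l 89231364) (l 1129)) (n (l 93130764) (l 93130768))) (n (n (l 93130776) (l 1129)) (n (l 93130780) (l 93130784))))) (n (n (n (n (l 89174020) (l 1125)) (n (l 91295768) (l 1125))) (n (n (l 93102092) (l 93102096)) (n (l 93102108) (l 93102112)))) (n (n (n (l 87138312) (l 1125)) (n (l 91295772) (l 1125))) (n (n (l 91267100) (l 1129)) (n (l 71) (l 93130788)))))) (n (n (n (n (n (l 88485892) (l 90837016)) (n (l 1093) (l 1093))) (n (n (l 92643340) (l 92643356)) (n (l 92643344) (l 92643360)))) (n (n (n (l 837) (l 837)) (n (l 837) (l 837))) (n (n (l 837) (l 837)) (n (l 837) (l 837))))) (n (n (n (n (l 87138316) (l 1125)) (n (l 1093) (l 1093))) (n (n (l 93130792) (l 93130796)) (n (l 92901420) (l 93130800)))) (n (n (n (l 87138320) (l 1125)) (n (l 1093) (l 1093))) (n (n (l 89231404) (l 1129))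 (n (l 93130804) (l 93130808))))))

theorem tbl6_ok : chkTbl 6 tbl6 masks6 = true := by decide +kernel

theorem masks6_good : ∀ x ∈ masks6, Good 6 x :=
  (good_cons (goodC c6_0_ok rfl rfl)
    (good_cons (goodC c6_1_ok rfl rfl)
    (good_cons (goodC c6_2_ok rfl rfl)
    (good_cons (goodC c6_3_ok rfl rfl)
    (good_cons (goodC c6_4_ok rfl rfl)
    (good_cons (goodC c6_5_ok rfl rfl)
    (good_cons (goodC c6_6_ok rfl rfl)
    (good_cons (goodC c6_7_ok rfl rfl)
    (good_cons (goodC c6_8_ok rfl rfl)
    (good_cons (goodC c6_9_ok rfl rfl)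
    (good_cons (goodC c6_10_ok rfl rfl)
    (good_cons (goodC c6_11_ok rfl rfl)
    (good_cons (goodC c6_12_ok rfl rfl)
    (good_cons (goodC c6_13_ok rfl rfl)
    (good_cons (goodC c6_14_ok rfl rfl)
    good_nil)))))))))))))))

/-- the orders with 7 elements -/
def masks7 : List Nat := [284795138548095, 284803728482687, 284803795591551, 284795239211391, 284803829145983, 284803796115839, 284795172626815, 284795239735679, 284803829670271, 284803829932415, 284795139465599, 284803729400191, 284803796509055, 284795240128895, 284803830063487, 284803796119935, 284795172630911, 284795239739775, 284803829674367, 284795239477631, 284803829936511, 284795138945407, 284795139469695, 284803729404287, 284803796513151, 284795173024127, 284795240132991, 284803830067583, 284803829938559, 284795139209599, 284803729144191, 284803796253055, 284803729406335, 284803796515199, 284803830069631, 284803729270143, 284795240136063, 284803830070655, 284795138555775, 284803728490367, 284803795599231, 284795239219071, 284803829153663,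 284803796123519, 284795172634495, 284795239743359, 284803829677951, 284803829940095, 284795139473279, 284803729407871, 284803796516735, 284795240136575, 284803830071167]

open NTree in
/-- the table for 7 elements -/
noncomputable def tbl7 : NTree := n (n (n (n (n (n (n (n (n (n (l 898437120) (l 898437124)) (n (l 896602116) (l 898437128))) (n (n (l 896143364) (l 898207752)) (n (l 894537736) (l 898437140)))) (n (n (n (l 896057348) (l 898150408)) (n (l 894480392) (l 898408468))) (n (n (l 893792264) (l 897949716)) (n (l 892444692) (l 898437180))))) (n (n (n (n (l 867241988) (l 1421)) (n (l 898437132) (l 898437136))) (n (n (l 898437144) (l 1421)) (n (l 898437148) (l 898437152)))) (n (n (n (l 898408472) (l 1421)) (n (l 898408476) (l 898408480))) (n (n (l 898437184) (l 1421)) (n (l 898437188) (l 898437192)))))) (n (n (n (n (n (l 866783236) (l 1417)) (n (l 883757080) (l 1417))) (n (n (l 898207756) (l 898207760)) (n (l 898207772) (l 898207776)))) (n (n (n (l 897949720) (l 1417)) (n (l 898207808) (l 1417)))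 (n (n (l 897949724) (l 897949728)) (n (l 898207812) (l 898207816))))) (n (n (n (n (l 850497544) (l 1417)) (n (l 883757084) (l 1417))) (n (n (l 883527708) (l 1421)) (n (l 107) (l 898437156)))) (n (n (n (l 883470400) (l 1417)) (n (l 898437196) (l 1417))) (n (n (l 898207820) (l 1421)) (n (l 107) (l 898437200))))))) (n (n (n (n (n (n (l 866697220) (l 1413)) (n (l 883728408) (l 1413))) (n (n (l 883269656) (l 1413)) (n (l 898150464) (l 1413)))) (n (n (n (l 898150412) (l 898150416)) (n (l 898150428) (l 898150432))) (n (n (l 897921052) (l 897921056)) (n (l 898150468) (l 898150472))))) (n (n (n (n (l 850440200) (l 1413)) (n (l 883728412) (l 1413))) (n (n (l 883527744) (l 1413)) (n (l 883757132) (l 1413)))) (n (n (n (l 883470364) (l 1421)) (n (l 103) (l 898408484))) (n (n (l 898150476) (l 1421)) (n (l 103) (l 898408528)))))) (n (n (n (n (n (l 849752072) (l 1413)) (n (l 883757120) (l 1413))) (n (n (l 883269660) (l 1413)) (n (l 883527756) (l 1413)))) (n (n (n (l 883240988) (l 1417)) (n (l 883470412) (l 1417)))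 (n (n (l 71) (l 897949732)) (n (l 71) (l 897949776))))) (n (n (n (n (l 833724436) (l 1413)) (n (l 883757124) (l 1413))) (n (n (l 883527748) (l 1413)) (n (l 107) (l 1413)))) (n (n (n (l 883470404) (l 1417)) (n (l 103) (l 1417))) (n (n (l 71) (l 1421)) (n (l 71) (l 898437232)))))))) (n (n (n (n (n (n (n (l 861278212) (l 880087064)) (n (l 1385) (l 1385))) (n (n (l 894537740) (l 894537756)) (n (l 894537744) (l 894537760)))) (n (n (n (l 892444696) (l 894537792)) (n (l 1385) (l 1385))) (n (n (l 892444700) (l 894537796)) (n (l 892444704) (l 894537800))))) (n (n (n (n (l 1129) (l 1129)) (n (l 1129) (l 1129))) (n (n (l 1129) (l 1129)) (n (l 1129) (l 1129)))) (n (n (n (l 1129) (l 1129)) (n (l 1129) (l 1129))) (n (n (l 1129) (l 1129)) (n (l 1129) (l 1129)))))) (n (n (n (n (n (l 850497548) (l 1417)) (n (l 1385) (l 1385))) (n (n (l 898437160) (l 898437164)) (n (l 896602156) (l 898437168)))) (n (n (n (l 898437204) (l 1417)) (n (l 1385) (l 1385))) (n (n (l 898437208) (l 898437212)) (n (l 896602204) (l 898437216)))))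 (n (n (n (n (l 850497552) (l 1417)) (n (l 1385) (l 1385))) (n (n (l 867242028) (l 1421)) (n (l 898437172) (l 898437176)))) (n (n (n (l 867242124) (l 1417)) (n (l 1385) (l 1385))) (n (n (l 898437220) (l 1421)) (n (l 898437224) (l 898437228))))))) (n (n (n (n (n (n (l 833724440) (l 1413)) (n (l 1385) (l 1413))) (n (n (l 883757140) (l 1413)) (n (l 896602252) (l 1413)))) (n (n (n (l 880058452) (l 898408588)) (n (l 1385) (l 1385))) (n (n (l 898437236) (l 898437240)) (n (l 896573560) (l 898437244))))) (n (n (n (n (l 1129) (l 1413)) (n (l 1129) (l 1413))) (n (n (l 1129) (l 1413)) (n (l 1129) (l 1413)))) (n (n (n (l 1129) (l 1129)) (n (l 1129) (l 1129))) (n (n (l 1129) (l 1129)) (n (l 1129) (l 1129)))))) (n (n (n (n (n (l 833724444) (l 1413)) (n (l 1385) (l 1413))) (n (n (l 883757144) (l 1413)) (n (l 883757156) (l 1413)))) (n (n (n (l 883757172) (l 1417)) (n (l 1385) (l 1385))) (n (n (l 71) (l 898437248)) (n (l 71) (l 898437252))))) (n (n (n (n (l 833724448) (l 1413)) (n (l 1385) (l 1413))) (n (n (l 867242076)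 (l 1413)) (n (l 883757160) (l 1413)))) (n (n (n (l 867213432) (l 1417)) (n (l 1385) (l 1385))) (n (n (l 71) (l 1421)) (n (l 71) (l 898437256))))))))) (n (n (n (n (n (n (n (n (l 861192196) (l 880058392)) (n (l 1381) (l 1381))) (n (n (l 875929624) (l 894480448)) (n (l 1381) (l 1381)))) (n (n (n (l 894480396) (l 894480412)) (n (l 894480400) (l 894480416))) (n (n (l 892416028) (l 894480452)) (n (l 892416032) (l 894480456))))) (n (n (n (n (l 1125) (l 1125)) (n (l 1125) (l 1125))) (n (n (l 1125) (l 1125)) (n (l 1125) (l 1125)))) (n (n (n (l 1125) (l 1125)) (n (l 1125) (l 1125))) (n (n (l 1125) (l 1125)) (n (l 1125) (l 1125)))))) (n (n (n (n (n (l 831889432) (l 1417)) (n (l 1381) (l 1381))) (n (n (l 880087124) (l 898437260)) (n (l 1381) (l 1381)))) (n (n (n (l 883728468) (l 1417)) (n (l 896573580) (l 1417))) (n (n (l 896602228) (l 898408568)) (n (l 896602232) (l 896602236))))) (n (n (n (n (l 1125) (l 1125)) (n (l 1125) (l 1125))) (n (n (l 1125) (l 1125)) (n (l 1125) (l 1125)))) (n (n (n (l 1125) (l 1125))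 (n (l 1125) (l 1125))) (n (n (l 1125) (l 1125)) (n (l 1125) (l 1125))))))) (n (n (n (n (n (n (l 850440204) (l 1413)) (n (l 1381) (l 1381))) (n (n (l 898408532) (l 1413)) (n (l 1381) (l 1381)))) (n (n (n (l 898408488) (l 898408492)) (n (l 896573484) (l 898408496))) (n (n (l 898408536) (l 898408540)) (n (l 896573532) (l 898408544))))) (n (n (n (n (l 850440208) (l 1413)) (n (l 1381) (l 1381))) (n (n (l 867213452) (l 1413)) (n (l 1381) (l 1381)))) (n (n (n (l 867213356) (l 1421)) (n (l 898408500) (l 898408504))) (n (n (l 898408548) (l 1421)) (n (l 898408552) (l 898408556)))))) (n (n (n (n (n (l 833695772) (l 1413)) (n (l 1381) (l 1381))) (n (n (l 867242100) (l 1413)) (n (l 1381) (l 1381)))) (n (n (n (l 883728472) (l 1417)) (n (l 883728484) (l 1417))) (n (n (l 71) (l 898408576)) (n (l 71) (l 898408580))))) (n (n (n (n (l 833695776) (l 1413)) (n (l 1381) (l 1381))) (n (n (l 867242104) (l 1413)) (n (l 1381) (l 1381)))) (n (n (n (l 867213404) (l 1417)) (n (l 883728488) (l 1417))) (n (n (l 71) (l 1421)) (n (l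 71) (l 898408584)))))))) (n (n (n (n (n (n (n (l 842412040) (l 880087104)) (n (l 1381) (l 1381))) (n (n (l 875929628) (l 878022732)) (n (l 1381) (l 1381)))) (n (n (n (l 875900956) (l 877965388)) (n (l 1385) (l 1385))) (n (n (l 71) (l 71)) (n (l 892444708) (l 892444752))))) (n (n (n (n (l 1125) (l 1125)) (n (l 1125) (l 1125))) (n (n (l 1125) (l 1125)) (n (l 1125) (l 1125)))) (n (n (n (l 1125) (l 1125)) (n (l 1125) (l 1125))) (n (n (l 1125) (l 1125)) (n (l 1125) (l 1125)))))) (n (n (n (n (n (l 831889436) (l 1417)) (n (l 1381) (l 1381))) (n (n (l 880087128) (l 880087140)) (n (l 1381) (l 1381)))) (n (n (n (l 880087156) (l 1417)) (n (l 1385) (l 1385))) (n (n (l 71) (l 71)) (n (l 896602240) (l 896602244))))) (n (n (n (n (l 1125) (l 1125)) (n (l 1125) (l 1125))) (n (n (l 1125) (l 1125)) (n (l 1125) (l 1125)))) (n (n (n (l 1125) (l 1125)) (n (l 1125) (l 1125))) (n (n (l 1125) (l 1125)) (n (l 1125) (l 1125))))))) (n (n (n (n (n (n (l 831860764) (l 1413)) (n (l 1381) (l 1381))) (n (n (l 865407092) (l 1413)) (n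 (l 1381) (l 1381)))) (n (n (n (l 880058456) (l 880058468)) (n (l 1385) (l 1385))) (n (n (l 71) (l 71)) (n (l 896573568) (l 896573572))))) (n (n (n (n (l 1129) (l 1413)) (n (l 1381) (l 1381))) (n (n (l 1129) (l 1413)) (n (l 1381) (l 1381)))) (n (n (n (l 1129) (l 1129)) (n (l 1129) (l 1129))) (n (n (l 1129) (l 1129)) (n (l 1129) (l 1129)))))) (n (n (n (n (n (l 71) (l 1413)) (n (l 1381) (l 1381))) (n (n (l 71) (l 1413)) (n (l 1381) (l 1381)))) (n (n (n (l 71) (l 1417)) (n (l 1385) (l 1385))) (n (n (l 71) (l 71)) (n (l 71) (l 71))))) (n (n (n (n (l 833724452) (l 1413)) (n (l 1381) (l 1381))) (n (n (l 867242112) (l 1413)) (n (l 1381) (l 1381)))) (n (n (n (l 867213440) (l 1417)) (n (l 1385) (l 1385))) (n (n (l 71) (l 1421)) (n (l 898437264) (l 898437268)))))))))) (n (n (n (n (n (n (n (n (n (l 860274692) (l 879140888)) (n (l 875470872) (l 893792320))) (n (n (l 1349) (l 1349)) (n (l 1349) (l 1349)))) (n (n (n (l 893792268) (l 893792284)) (n (l 891957276) (l 893792324))) (n (n (l 893792272) (l 893792288)) (n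 (l 891957280) (l 893792328))))) (n (n (n (n (l 831430680) (l 1421)) (n (l 879398996) (l 898207884))) (n (n (l 1349) (l 1349)) (n (l 1349) (l 1349)))) (n (n (n (l 883269716) (l 1421)) (n (l 896143476) (l 897949816))) (n (n (l 895885452) (l 1421)) (n (l 896143480) (l 896143484)))))) (n (n (n (n (n (l 1093) (l 1093)) (n (l 1093) (l 1093))) (n (n (l 1093) (l 1093)) (n (l 1093) (l 1093)))) (n (n (n (l 1093) (l 1093)) (n (l 1093) (l 1093))) (n (n (l 1093) (l 1093)) (n (l 1093) (l 1093))))) (n (n (n (n (l 1093) (l 1093)) (n (l 1093) (l 1093))) (n (n (l 1093) (l 1093)) (n (l 1093) (l 1093)))) (n (n (n (l 1093) (l 1093)) (n (l 1093) (l 1093))) (n (n (l 1093) (l 1093)) (n (l 1093) (l 1093))))))) (n (n (n (n (n (n (l 849752076) (l 1413)) (n (l 897949780) (l 1413))) (n (n (l 1349) (l 1349)) (n (l 1349) (l 1349)))) (n (n (n (l 897949736) (l 897949740)) (n (l 897949784) (l 897949788))) (n (n (l 895885356) (l 897949744)) (n (l 895885404) (l 897949792))))) (n (n (n (n (l 833237020) (l 1413)) (n (l 866783348) (l 1413)))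 (n (n (l 1349) (l 1349)) (n (l 1349) (l 1349)))) (n (n (n (l 883269720) (l 1421)) (n (l 103) (l 897949824))) (n (n (l 883269732) (l 1421)) (n (l 103) (l 897949828)))))) (n (n (n (n (n (l 849752080) (l 1413)) (n (l 866525324) (l 1413))) (n (n (l 1349) (l 1349)) (n (l 1349) (l 1349)))) (n (n (n (l 866525228) (l 1417)) (n (l 897949796) (l 1417))) (n (n (l 897949748) (l 897949752)) (n (l 897949800) (l 897949804))))) (n (n (n (n (l 833237024) (l 1413)) (n (l 866783352) (l 1413))) (n (n (l 1349) (l 1349)) (n (l 1349) (l 1349)))) (n (n (n (l 866525276) (l 1417)) (n (l 103) (l 1417))) (n (n (l 883269736) (l 1421)) (n (l 103) (l 897949832)))))))) (n (n (n (n (n (n (n (l 837) (l 837)) (n (l 837) (l 837))) (n (n (l 837) (l 837)) (n (l 837) (l 837)))) (n (n (n (l 837) (l 837)) (n (l 837) (l 837))) (n (n (l 837) (l 837)) (n (l 837) (l 837))))) (n (n (n (n (l 837) (l 837)) (n (l 837) (l 837))) (n (n (l 837) (l 837)) (n (l 837) (l 837)))) (n (n (n (l 837) (l 837)) (n (l 837) (l 837))) (n (n (l 837) (l 837)) (n (l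 837) (l 837)))))) (n (n (n (n (n (l 837) (l 837)) (n (l 837) (l 837))) (n (n (l 837) (l 837)) (n (l 837) (l 837)))) (n (n (n (l 837) (l 837)) (n (l 837) (l 837))) (n (n (l 837) (l 837)) (n (l 837) (l 837))))) (n (n (n (n (l 837) (l 837)) (n (l 837) (l 837))) (n (n (l 837) (l 837)) (n (l 837) (l 837)))) (n (n (n (l 837) (l 837)) (n (l 837) (l 837))) (n (n (l 837) (l 837)) (n (l 837) (l 837))))))) (n (n (n (n (n (n (l 837) (l 837)) (n (l 837) (l 837))) (n (n (l 837) (l 837)) (n (l 837) (l 837)))) (n (n (n (l 837) (l 837)) (n (l 837) (l 837))) (n (n (l 837) (l 837)) (n (l 837) (l 837))))) (n (n (n (n (l 837) (l 837)) (n (l 837) (l 837))) (n (n (l 837) (l 837)) (n (l 837) (l 837)))) (n (n (n (l 837) (l 837)) (n (l 837) (l 837))) (n (n (l 837) (l 837)) (n (l 837) (l 837)))))) (n (n (n (n (n (l 837) (l 837)) (n (l 837) (l 837))) (n (n (l 837) (l 837)) (n (l 837) (l 837)))) (n (n (n (l 837) (l 837)) (n (l 837) (l 837))) (n (n (l 837) (l 837)) (n (l 837) (l 837))))) (n (n (n (n (l 837) (l 837)) (n (l 837) (l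 837))) (n (n (l 837) (l 837)) (n (l 837) (l 837)))) (n (n (n (l 837) (l 837)) (n (l 837) (l 837))) (n (n (l 837) (l 837)) (n (l 837) (l 837))))))))) (n (n (n (n (n (n (n (n (l 842412044) (l 892444756)) (n (l 1381) (l 1381))) (n (n (l 1349) (l 1349)) (n (l 1349) (l 1349)))) (n (n (n (l 892444712) (l 892444760)) (n (l 892444716) (l 892444764))) (n (n (l 892215340) (l 892215388)) (n (l 892444720) (l 892444768))))) (n (n (n (n (l 1125) (l 1125)) (n (l 1125) (l 1125))) (n (n (l 1349) (l 1349)) (n (l 1349) (l 1349)))) (n (n (n (l 1125) (l 1125)) (n (l 1125) (l 1125))) (n (n (l 1125) (l 1125)) (n (l 1125) (l 1125)))))) (n (n (n (n (n (l 1093) (l 1093)) (n (l 1093) (l 1093))) (n (n (l 1093) (l 1093)) (n (l 1093) (l 1093)))) (n (n (n (l 1093) (l 1093)) (n (l 1093) (l 1093))) (n (n (l 1093) (l 1093)) (n (l 1093) (l 1093))))) (n (n (n (n (l 1093) (l 1093)) (n (l 1093) (l 1093))) (n (n (l 1093) (l 1093)) (n (l 1093) (l 1093)))) (n (n (n (l 1093) (l 1093)) (n (l 1093) (l 1093))) (n (n (l 1093) (l 1093)) (n (l 1093)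 (l 1093))))))) (n (n (n (n (n (n (l 833724456) (l 1413)) (n (l 1381) (l 1381))) (n (n (l 1349) (l 1349)) (n (l 1349) (l 1349)))) (n (n (n (l 898437272) (l 898437276)) (n (l 896602268) (l 898437280))) (n (n (l 896143516) (l 898207904)) (n (l 894537888) (l 898437292))))) (n (n (n (n (l 833724460) (l 1413)) (n (l 1381) (l 1381))) (n (n (l 1349) (l 1349)) (n (l 1349) (l 1349)))) (n (n (n (l 867242140) (l 1421)) (n (l 898437284) (l 898437288))) (n (n (l 898437296) (l 1421)) (n (l 898437300) (l 898437304)))))) (n (n (n (n (n (l 833495084) (l 1413)) (n (l 1381) (l 1381))) (n (n (l 1349) (l 1349)) (n (l 1349) (l 1349)))) (n (n (n (l 866783388) (l 1417)) (n (l 883757232) (l 1417))) (n (n (l 898207908) (l 898207912)) (n (l 898207924) (l 898207928))))) (n (n (n (n (l 833724464) (l 1413)) (n (l 1381) (l 1381))) (n (n (l 1349) (l 1349)) (n (l 1349) (l 1349)))) (n (n (n (l 850497696) (l 1417)) (n (l 883757236) (l 1417))) (n (n (l 883527860) (l 1421)) (n (l 107) (l 898437308)))))))) (n (n (n (n (n (n (n (l 842412048)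 (l 859185292)) (n (l 1381) (l 1381))) (n (n (l 1349) (l 1349)) (n (l 1349) (l 1349)))) (n (n (n (l 859185196) (l 892444772)) (n (l 1385) (l 1385))) (n (n (l 892444724) (l 892444776)) (n (l 892444728) (l 892444780))))) (n (n (n (n (l 1125) (l 1125)) (n (l 1125) (l 1125))) (n (n (l 1349) (l 1349)) (n (l 1349) (l 1349)))) (n (n (n (l 1125) (l 1125)) (n (l 1125) (l 1125))) (n (n (l 1125) (l 1125)) (n (l 1125) (l 1125)))))) (n (n (n (n (n (l 1093) (l 1093)) (n (l 1093) (l 1093))) (n (n (l 1093) (l 1093)) (n (l 1093) (l 1093)))) (n (n (n (l 1093) (l 1093)) (n (l 1093) (l 1093))) (n (n (l 1093) (l 1093)) (n (l 1093) (l 1093))))) (n (n (n (n (l 1093) (l 1093)) (n (l 1093) (l 1093))) (n (n (l 1093) (l 1093)) (n (l 1093) (l 1093)))) (n (n (n (l 1093) (l 1093)) (n (l 1093) (l 1093))) (n (n (l 1093) (l 1093)) (n (l 1093) (l 1093))))))) (n (n (n (n (n (n (l 829825068) (l 1413)) (n (l 1381) (l 1381))) (n (n (l 1349) (l 1349)) (n (l 1349) (l 1349)))) (n (n (n (l 861278364) (l 880087216)) (n (l 1385) (l 1385))) (n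 (n (l 894537892) (l 894537908)) (n (l 894537896) (l 894537912))))) (n (n (n (n (l 1129) (l 1413)) (n (l 1381) (l 1381))) (n (n (l 1349) (l 1349)) (n (l 1349) (l 1349)))) (n (n (n (l 1129) (l 1129)) (n (l 1129) (l 1129))) (n (n (l 1129) (l 1129)) (n (l 1129) (l 1129)))))) (n (n (n (n (n (l 833724468) (l 1413)) (n (l 1381) (l 1381))) (n (n (l 1349) (l 1349)) (n (l 1349) (l 1349)))) (n (n (n (l 850497700) (l 1417)) (n (l 1385) (l 1385))) (n (n (l 898437312) (l 898437316)) (n (l 896602308) (l 898437320))))) (n (n (n (n (l 833724472) (l 1413)) (n (l 1381) (l 1381))) (n (n (l 1349) (l 1349)) (n (l 1349) (l 1349)))) (n (n (n (l 850497704) (l 1417)) (n (l 1385) (l 1385))) (n (n (l 867242180) (l 1421)) (n (l 898437324) (l 898437328))))))))))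

theorem tbl7_ok : chkTbl 7 tbl7 masks7 = true := by decide +kernel

theorem masks7_good : ∀ x ∈ masks7, Good 7 x :=
  (good_cons (goodC c7_0_ok rfl rfl)
    (good_cons (goodC c7_1_ok rfl rfl)
    (good_cons (goodC c7_2_ok rfl rfl)
    (good_cons (goodC c7_3_ok rfl rfl)
    (good_cons (goodC c7_4_ok rfl rfl)
    (good_cons (goodC c7_5_ok rfl rfl)
    (good_cons (goodC c7_6_ok rfl rfl)
    (good_cons good_L7
    (good_cons (goodC c7_8_ok rfl rfl)
    (good_cons (goodC c7_9_ok rfl rfl)
    (good_cons (goodC c7_10_ok rfl rfl)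
    (good_cons (goodC c7_11_ok rfl rfl)
    (good_cons (goodC c7_12_ok rfl rfl)
    (good_cons (goodC c7_13_ok rfl rfl)
    (good_cons (goodC c7_14_ok rfl rfl)
    (good_cons (goodC c7_15_ok rfl rfl)
    (good_cons (goodC c7_16_ok rfl rfl)
    (good_cons (goodC c7_17_ok rfl rfl)
    (good_cons (goodC c7_18_ok rfl rfl)
    (good_cons (goodC c7_19_ok rfl rfl)
    (good_cons (goodC c7_20_ok rfl rfl)
    (good_cons (goodC c7_21_ok rfl rfl)
    (good_cons (goodC c7_22_ok rfl rfl)
    (good_cons (goodC c7_23_ok rfl rfl)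
    (good_cons (goodC c7_24_ok rfl rfl)
    (good_cons (goodC c7_25_ok rfl rfl)
    (good_cons (goodC c7_26_ok rfl rfl)
    (good_cons (goodC c7_27_ok rfl rfl)
    (good_cons (goodC c7_28_ok rfl rfl)
    (good_cons (goodC c7_29_ok rfl rfl)
    (good_cons (goodC c7_30_ok rfl rfl)
    (good_cons (goodC c7_31_ok rfl rfl)
    (good_cons (goodC c7_32_ok rfl rfl)
    (good_cons (goodC c7_33_ok rfl rfl)
    (good_cons (goodC c7_34_ok rfl rfl)
    (good_cons (goodC c7_35_ok rfl rfl)
    (good_cons (goodC c7_36_ok rfl rfl)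
    (good_cons (goodC c7_37_ok rfl rfl)
    (good_cons (goodC c7_38_ok rfl rfl)
    (good_cons (goodC c7_39_ok rfl rfl)
    (good_cons (goodC c7_40_ok rfl rfl)
    (good_cons (goodC c7_41_ok rfl rfl)
    (good_cons (goodC c7_42_ok rfl rfl)
    (good_cons (goodC c7_43_ok rfl rfl)
    (good_cons (goodC c7_44_ok rfl rfl)
    (good_cons (goodC c7_45_ok rfl rfl)
    (good_cons (goodC c7_46_ok rfl rfl)
    (good_cons (goodC c7_47_ok rfl rfl)
    (good_cons (goodC c7_48_ok rfl rfl)
    (good_cons (goodC c7_49_ok rfl rfl)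
    (good_cons (goodC c7_50_ok rfl rfl)
    (good_cons (goodC c7_51_ok rfl rfl)
    (good_cons (goodC c7_52_ok rfl rfl)
    good_nil)))))))))))))))))))))))))))))))))))))))))))))))))))))

/-- every lattice with at most seven elements is representable -/
theorem representable_of_card_le_seven (L : Type) [Lattice L] [Finite L] [Nonempty L]
    (h : Nat.card L ≤ 7) : Representable L := by
  have h0 : 0 < Nat.card L := Nat.card_pos
  generalize hn : Nat.card L = n at h h0
  interval_cases n
  · exact representable_of_tbl (by norm_num) (by norm_num) tbl1_ok masks1_good L hn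
  · exact representable_of_tbl (by norm_num) (by norm_num) tbl2_ok masks2_good L hn
  · exact representable_of_tbl (by norm_num) (by norm_num) tbl3_ok masks3_good L hn
  · exact representable_of_tbl (by norm_num) (by norm_num) tbl4_ok masks4_good L hn
  · exact representable_of_tbl (by norm_num) (by norm_num) tbl5_ok masks5_good L hn
  · exact representable_of_tbl (by norm_num) (by norm_num) tbl6_ok masks6_good L hn
  · exact representable_of_tbl (by norm_num) (by norm_num) tbl7_ok masks7_good L hn

end Vale.Agent.Lib.P183
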